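import Vale.Agent.P181.ST.Defs
import Vale.Agent.P181.SZR5b.Mark

set_option autoImplicit false

/-!
# P181, ST [T0], [T3], [T4], [T5]: transport, relabelling, pure letters, a new label
-/

open MvPolynomial

namespace Vale.Agent.P181.ST.H613

open Vale.Agent.P181.T4 (HW rowOp mem_HW)
open Vale.Agent.P181.ST
open Vale.Agent.P181.SZR5b (rc rc_inj rowOp_rename HW_rename col_rename)

/-- Two families with the same multiset of values. -/
theorem exists_equiv {α σ τ : Type} [Fintype σ] [Fintype τ] (f : σ → α) (g : τ → α)
    (h : Finset.univ.val.map f = Finset.univ.val.map g) : ∃ e : σ ≃ τ, ∀ s, g (e s) = f s := by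
  classical
  have hc : ∀ x, Fintype.card {s // f s = x} = Fintype.card {t // g t = x} := by
    intro x
    have h1 : ∀ (ρ : Type) [Fintype ρ] (k : ρ → α),
        Fintype.card {s // k s = x} = Multiset.count x (Finset.univ.val.map k) := by
      intro ρ _ k
      rw [Multiset.count_map, Fintype.card_subtype]
      rw [Finset.card_def, Finset.filter_val]
      congr 1
      apply Multiset.filter_congr
      intro a _
      exact eq_comm
    rw [h1 σ f, h1 τ g, h]
  exact ⟨Equiv.ofFiberEquiv fun x => Fintype.equivOfCardEq (hc x),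
    fun s => Equiv.ofFiberEquiv_map _ s⟩

lemma rename_rc {m : ℕ} {σ τ ρ : Type} (g : τ → ρ) (f : σ → τ) (F : MvPolynomial (Fin m × σ) ℂ) :
    rename (rc m g) (rename (rc m f) F) = rename (rc m (g ∘ f)) F := by
  rw [rename_rename]
  rfl

/-- Membership in terms of `rc`. -/
lemma mem_GP' {m : ℕ} {σ : Type} [Fintype σ] {lab : σ → ℕ × ℕ} {nu : Fin m → ℕ}
    {f : MvPolynomial (Fin m × σ) ℂ} : f ∈ GP m σ lab nu ↔ f ∈ HW m σ nu ∧
      (∀ v, coeff v f ≠ 0 → ∀ j, ∑ i, v (i, j) = (lab j).2) ∧
      ∀ e : Equiv.Perm σ, (∀ j, lab (e j) = lab j) → rename (rc m e) f = f := Iff.rfl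

/-- Reflection of the conditions by an injective renaming. -/
lemma HW_of_rename {m : ℕ} {σ τ : Type} [Fintype σ] [Fintype τ] {g : σ → τ}
    (hg : Function.Injective g) {nu : Fin m → ℕ} {f : MvPolynomial (Fin m × σ) ℂ}
    (hf : rename (rc m g) f ∈ HW m τ nu) : f ∈ HW m σ nu := by
  rw [mem_HW] at hf ⊢
  refine ⟨fun v hv i => ?_, fun s i h => ?_⟩
  · have h1 := hf.1 (v.mapDomain (rc m g)) (by
      rw [coeff_rename_mapDomain _ (rc_inj hg)]; exact hv) i
    rw [← h1]
    apply Fintype.sum_of_injective g hg
    · intro j hj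
      apply Finsupp.mapDomain_of_notMem_range
      rintro ⟨⟨a, b⟩, hab⟩
      exact hj ⟨b, (Prod.ext_iff.1 hab).2⟩
    · intro j
      exact (Finsupp.mapDomain_apply (rc_inj hg) v (i, j)).symm
  · apply rename_injective _ (rc_inj (n := m) hg)
    rw [← rowOp_rename, hf.2 s i h, map_zero]

lemma col_of_rename {m : ℕ} {σ τ : Type} {g : σ → τ}
    (hg : Function.Injective g) {d : τ → ℕ} {f : MvPolynomial (Fin m × σ) ℂ}
    (hf : ∀ v, coeff v (rename (rc m g) f) ≠ 0 → ∀ j, ∑ i, v (i, j) = d j) :
    ∀ v, coeff v f ≠ 0 → ∀ j, ∑ i, v (i, j) = d (g j) := by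
  intro v hv j
  have h1 := hf (v.mapDomain (rc m g)) (by
    rw [coeff_rename_mapDomain _ (rc_inj hg)]; exact hv) (g j)
  rw [← h1]
  exact Finset.sum_congr rfl fun i _ => (Finsupp.mapDomain_apply (rc_inj hg) v (i, j)).symm

/-- Only the columns of positive degree count. -/
theorem finrank_pos {m : ℕ} {σ ι : Type} [Fintype σ] [Fintype ι] (lab : σ → ℕ × ℕ)
    (nu : Fin m → ℕ) (g : ι → σ) (hg : Function.Injective g)
    (hg2 : ∀ j, j ∉ Set.range g → (lab j).2 = 0)
    (hg3 : ∀ j k, lab j = lab k → j ∈ Set.range g → k ∈ Set.range g) :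
    Module.finrank ℂ (GP m σ lab nu) = Module.finrank ℂ (GP m ι (lab ∘ g) nu) := by
  classical
  have hmem : ∀ f : MvPolynomial (Fin m × ι) ℂ, f ∈ GP m ι (lab ∘ g) nu →
      rename (rc m g) f ∈ GP m σ lab nu := by
    intro f hf
    rw [mem_GP'] at hf ⊢
    refine ⟨HW_rename g hf.1, col_rename hg (fun j => rfl) hg2 hf.2.1, fun e he => ?_⟩
    have h1 : ∀ j, e (g j) ∈ Set.range g := fun j => hg3 (g j) (e (g j)) (he _).symm ⟨j, rfl⟩
    choose k hk using h1
    have hkinj : Function.Injective k := by
      intro a b hab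
      apply hg
      apply e.injective
      rw [← hk a, ← hk b, hab]
    let e' : Equiv.Perm ι := Equiv.ofBijective k (Finite.injective_iff_bijective.1 hkinj)
    have h2 : (e : σ → σ) ∘ g = g ∘ (e' : ι → ι) := by
      funext j
      exact (hk j).symm
    rw [rename_rc, h2, ← rename_rc, hf.2.2 e']
    intro j
    change lab (g (k j)) = lab (g j)
    rw [hk, he]
  let Φ : GP m ι (lab ∘ g) nu →ₗ[ℂ] GP m σ lab nu :=
    { toFun := fun f => ⟨rename (rc m g) f.1, hmem f.1 f.2⟩
      map_add' := fun f h => Subtype.ext (map_add _ _ _)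
      map_smul' := fun c f => Subtype.ext (map_smul _ _ _) }
  have hinj : Function.Injective Φ := by
    intro f h hfh
    apply Subtype.ext
    apply rename_injective _ (rc_inj (n := m) hg)
    exact congrArg Subtype.val hfh
  have hsurj : Function.Surjective Φ := by
    rintro ⟨F, hF⟩
    rw [mem_GP'] at hF
    have hv : (F.vars : Set (Fin m × σ)) ⊆ Set.range (rc m g) := by
      rintro ⟨i, j⟩ hij
      rw [Finset.mem_coe, mem_vars_iff_mem_support] at hij
      obtain ⟨v, hv, hv'⟩ := hij
      have h1 := hF.2.1 v (mem_support_iff.1 hv) j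
      have h2 : v (i, j) ≤ ∑ i, v (i, j) :=
        Finset.single_le_sum (f := fun i => v (i, j)) (fun _ _ => Nat.zero_le _)
          (Finset.mem_univ i)
      have h3 : v (i, j) ≠ 0 := Finsupp.mem_support_iff.1 hv'
      have h4 : j ∈ Set.range g := by
        by_contra hj
        rw [hg2 j hj] at h1
        omega
      obtain ⟨k, rfl⟩ := h4
      exact ⟨(i, k), rfl⟩
    obtain ⟨f, hf⟩ := exists_rename_eq_of_vars_subset_range F (rc m g) (rc_inj hg) hv
    refine ⟨⟨f, ?_⟩, Subtype.ext hf⟩
    rw [mem_GP']
    rw [← hf] at hF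
    refine ⟨HW_of_rename hg hF.1, col_of_rename hg hF.2.1, fun e he => ?_⟩
    -- the extension of the permutation
    let E : Equiv.Perm σ := e.extendDomain (Equiv.ofInjective g hg)
    have h1 : (E : σ → σ) ∘ g = g ∘ (e : ι → ι) := by
      funext j
      have := Equiv.Perm.extendDomain_apply_image e (Equiv.ofInjective g hg) j
      simpa using this
    have h2 : ∀ j, lab (E j) = lab j := by
      intro j
      by_cases hj : j ∈ Set.range g
      · obtain ⟨k, rfl⟩ := hj
        have h3 : E (g k) = g (e k) := congrFun h1 k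
        rw [h3]
        exact he k
      · have h3 : E j = j := Equiv.Perm.extendDomain_apply_not_subtype e _ hj
        rw [h3]
    have h4 := hF.2.2 E h2
    rw [rename_rc, h1, ← rename_rc] at h4
    exact rename_injective _ (rc_inj (n := m) hg) h4
  exact (LinearEquiv.finrank_eq (LinearEquiv.ofBijective Φ ⟨hinj, hsurj⟩)).symm

lemma map_get (P : Multiset (ℕ × ℕ)) :
    Finset.univ.val.map (fun j : Fin P.toList.length => P.toList.get j) = P := by
  rw [Fin.univ_val_map, List.ofFn_get, Multiset.coe_toList]

/-- **(T0)** -/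
theorem trans : Trans := by
  intro m σ _ lab nu
  obtain ⟨e, he⟩ := exists_equiv (fun j : Fin (Finset.univ.val.map lab).toList.length =>
    (Finset.univ.val.map lab).toList.get j) lab (map_get _)
  have h1 : lab ∘ e = fun j => (Finset.univ.val.map lab).toList.get j := by
    funext j
    exact he j
  rw [G, ← h1]
  exact finrank_pos lab nu e e.injective (fun j hj => absurd (e.surjective j) hj)
    (fun j k _ _ => e.surjective k)

/-- **(T3)** -/
theorem relab : Relab := by
  intro m nu P f hf1 hf2
  have h0 := trans m (Fin P.toList.length) (fun j => f (P.toList.get j)) nu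
  have h1 : Finset.univ.val.map (fun j : Fin P.toList.length => f (P.toList.get j)) = P.map f := by
    rw [show (fun j : Fin P.toList.length => f (P.toList.get j)) =
      f ∘ fun j => P.toList.get j from rfl, ← Multiset.map_map, map_get]
  rw [h1] at h0
  have hm : ∀ j : Fin P.toList.length, P.toList.get j ∈ P := fun j =>
    Multiset.mem_toList.1 (List.get_mem _ _)
  have h2 : GP m (Fin P.toList.length) (fun j => f (P.toList.get j)) nu =
      GP m (Fin P.toList.length) (fun j => P.toList.get j) nu := by
    apply Submodule.ext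
    intro F
    rw [mem_GP, mem_GP]
    refine and_congr Iff.rfl (and_congr ?_ ?_)
    · refine forall_congr' fun v => imp_congr Iff.rfl (forall_congr' fun j => ?_)
      rw [hf2 _ (hm j)]
    · refine forall_congr' fun e => imp_congr (forall_congr' fun j => ?_) Iff.rfl
      exact ⟨fun h => hf1 _ (hm _) _ (hm _) h, fun h => by rw [h]⟩
  rw [← h0, h2]
  rfl

/-- The letters of positive degree. -/
theorem G_filter (m : ℕ) (nu : Fin m → ℕ) (P : Multiset (ℕ × ℕ)) :
    G m nu P = G m nu (P.filter fun x => x.2 ≠ 0) := by
  classical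
  let g : {j : Fin P.toList.length // (P.toList.get j).2 ≠ 0} → Fin P.toList.length :=
    Subtype.val
  have h1 := finrank_pos (fun j : Fin P.toList.length => P.toList.get j) nu g
    Subtype.val_injective (fun j hj => by
      by_contra h
      exact hj ⟨⟨j, h⟩, rfl⟩) (fun j k hjk hj => by
      obtain ⟨⟨x, hx⟩, rfl⟩ := hj
      exact ⟨⟨k, fun h => hx (by
        have : (P.toList.get x) = P.toList.get k := hjk
        rw [this]; exact h)⟩, rfl⟩)
  have h2 : G m nu P = _ := h1
  rw [h2, trans]
  congr 1
  rw [← Multiset.map_map]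
  have h3 : (Finset.univ : Finset {j : Fin P.toList.length // (P.toList.get j).2 ≠ 0}).val.map g
      = (Finset.univ : Finset (Fin P.toList.length)).val.filter
        fun j => (P.toList.get j).2 ≠ 0 := by
    have h5 : (Finset.univ : Finset {j : Fin P.toList.length // (P.toList.get j).2 ≠ 0}).map
        (Function.Embedding.subtype _) = Finset.univ.filter
          fun j => (P.toList.get j).2 ≠ 0 := by
      ext j
      simp
    have h6 := congrArg Finset.val h5
    rw [Finset.map_val, Finset.filter_val] at h6
    exact h6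
  rw [h3]
  conv_rhs => rw [← map_get P]
  rw [Multiset.filter_map]
  rfl

/-- **(T4)** -/
theorem pure : Pure := by
  intro m nu P Q hQ
  rw [G_filter, G_filter m nu P]
  congr 1
  rw [Multiset.filter_add]
  have h1 : Q.filter (fun x => x.2 ≠ 0) = 0 := by
    rw [Multiset.filter_eq_nil]
    intro x hx
    simpa using hQ x hx
  rw [h1, zero_add]

/-- **(T5)** -/
theorem fresh : Fresh := by
  intro m nu P i i' j hP
  have key : ∀ c : ℕ, Finset.univ.val.map (fun o : Option (Fin P.toList.length) =>
      o.elim (c, j) fun k => P.toList.get k) = (c, j) ::ₘ P := by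
    intro c
    rw [show (Finset.univ : Finset (Option (Fin P.toList.length))).val =
      none ::ₘ (Finset.univ : Finset (Fin P.toList.length)).val.map some from ?_]
    · rw [Multiset.map_cons, Multiset.map_map]
      congr 1
      exact map_get P
    · rfl
  rw [← key i, ← key i', ← trans, ← trans]
  apply Submodule.finrank_mono
  intro F hF
  rw [mem_GP] at hF ⊢
  refine ⟨hF.1, fun v hv o => ?_, fun e he => hF.2.2 e fun o => ?_⟩
  · have := hF.2.1 v hv o
    rcases o with _ | k
    · exact this
    · exact this
  · have hn : e none = none := by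
      have h1 := he none
      cases h2 : e none with
      | none => rfl
      | some k =>
        rw [h2] at h1
        exfalso
        apply hP
        have h3 : P.toList.get k = (i', j) := h1
        rw [← h3]
        exact Multiset.mem_toList.1 (List.get_mem _ _)
    rcases o with _ | k
    · rw [hn]
    · have h1 := he (some k)
      cases h2 : e (some k) with
      | none =>
        exfalso
        have : some k = none := e.injective (h2.trans hn.symm)
        cases this
      | some l =>
        rw [h2] at h1
        exact h1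

end Vale.Agent.P181.ST.H613
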