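import Vale.Agent.P181.ST.H613.Ops

set_option autoImplicit false

/-!
# P181, ST [T9]: the assembly
-/

namespace Vale.Agent.P181.ST.H613

open Vale.Agent.P181.ST
open Vale.Agent.P181.SZ (TI tl)
open Vale.Agent.P181.TW (NX)

/-- The operations hold for the multiplicities. -/
theorem ops (h6 : TwoBox) (m : ℕ) (nu : Fin (m + 1) → ℕ) (hnu : 2 ≤ nu 0) :
    Ops (G (m + 1) nu) where
  relab := relab (m + 1) nu
  pure := pure (m + 1) nu
  fresh := fresh (m + 1) nu
  two := fun P z f1 f2 f3 h h' => h6 m nu P z f1 f2 f3 hnu h h'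

lemma mem_LT {I J : ℕ} {P : Multiset (ℕ × ℕ)} (h : P ∈ LT I J) :
    (∀ x ∈ P, 2 ≤ x.1 + x.2) ∧ (P.map Prod.fst).sum = I ∧ (P.map Prod.snd).sum = J :=
  (Finset.mem_filter.1 h).2

lemma up_injective : Function.Injective up :=
  Multiset.map_injective fun x y h => by
    have h1 := congrArg Prod.fst h
    have h2 := congrArg Prod.snd h
    simp only at h1 h2
    exact Prod.ext (by omega) h2

lemma card_up (P : Multiset (ℕ × ℕ)) : Multiset.card (up P) = Multiset.card P :=
  Multiset.card_map _ _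

lemma sum_fst_up (P : Multiset (ℕ × ℕ)) :
    ((up P).map Prod.fst).sum = (P.map Prod.fst).sum + Multiset.card P := by
  rw [up, Multiset.map_map]
  induction P using Multiset.induction_on with
  | empty => simp
  | cons x P ih =>
    rw [Multiset.map_cons, Multiset.sum_cons, ih, Multiset.map_cons, Multiset.sum_cons,
      Multiset.card_cons]
    simp only [Function.comp]
    omega

lemma sum_snd_up (P : Multiset (ℕ × ℕ)) :
    ((up P).map Prod.snd).sum = (P.map Prod.snd).sum := by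
  rw [up, Multiset.map_map]
  rfl

lemma g_up {g : Multiset (ℕ × ℕ) → ℕ} (hg : Ops g) (P : Multiset (ℕ × ℕ)) : g (up P) = g P :=
  hg.relab P (fun x => (x.1 + 1, x.2)) (fun x _ y _ h => by
    have h1 := congrArg Prod.fst h
    have h2 := congrArg Prod.snd h
    simp only at h1 h2
    exact Prod.ext (by omega) h2) fun x _ => rfl

open scoped Classical in
/-- One step. -/
theorem step (h2 : LowG) (h6 : TwoBox) (hA : CntA) (hB : CntB) (a y m X K : ℕ)
    (mu : Fin (m + 2) → ℕ) (hK : 1 ≤ K) (hKX : 16 * K ^ 2 ≤ X) (hX : 10 ^ 6 ≤ X)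
    (hw : (∑ i, mu i) * X ^ 5 ≤ a ^ 2) (hw' : (∑ i, mu i + 10) ^ 20 ≤ X ^ K) (hay : a ≤ y)
    (hy : y + 1 ≤ 2 * a) (hnu : 2 ≤ tl mu 0) (hD : 16 * ∑ i, tl mu i ≤ a)
    (hmu : y + 1 ≤ mu 0) :
    Module.finrank ℂ (TI y a (m + 2) mu) +
      ∑ P ∈ LT (mu 0 - (y + 1)) (∑ i, tl mu i), G (m + 1) (tl mu) P ≤
    Module.finrank ℂ (TI (y + 1) a (m + 2) mu) := by
  set D := ∑ i, tl mu i with hDdef
  set M := mu 0 - (y + 1) with hM
  set g := G (m + 1) (tl mu) with hgdef
  have hg : Ops g := ops h6 m (tl mu) hnu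
  have hD2 : 2 ≤ D := le_trans hnu
    (Finset.single_le_sum (f := tl mu) (fun i _ => Nat.zero_le _) (Finset.mem_univ 0))
  have hsum : ∑ i, mu i = mu 0 + D := by
    rw [Fin.sum_univ_succ]
    rfl
  have hMD : M + D ≤ ∑ i, mu i := by omega
  have a1 := hA g hg a (y + 1) (∑ i, mu i) M D X K hK hKX hX hw hw' hD2 hD (by omega) hMD
  have b1 := hB g hg a (y + 1) (∑ i, mu i) M D X K hK hKX hX hw hw' hD2 hD (by omega) hMD
  -- the two families
  set L1 := ((LT M D).filter fun P => Typ a (y + 1) D P).image up with hL1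
  set L2 := ((LT (M + 1) (D - 2)).filter fun P => Typ a (y + 1) D P).image
    fun P => ((0, 2) : ℕ × ℕ) ::ₘ up P with hL2
  have hdisj : Disjoint L1 L2 := by
    rw [Finset.disjoint_left]
    intro Q hQ1 hQ2
    obtain ⟨P, _, rfl⟩ := Finset.mem_image.1 hQ1
    obtain ⟨P', _, hP'⟩ := Finset.mem_image.1 hQ2
    have h3 : ((0, 2) : ℕ × ℕ) ∈ up P := by
      rw [← hP']
      exact Multiset.mem_cons_self _ _
    obtain ⟨x, _, hx⟩ := Multiset.mem_map.1 h3
    have := congrArg Prod.fst hx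
    simp at this
  have s1 : ∑ P ∈ L1, g P = ∑ P ∈ (LT M D).filter (fun P => Typ a (y + 1) D P), g P := by
    rw [hL1, Finset.sum_image fun P _ Q _ h => up_injective h]
    exact Finset.sum_congr rfl fun P _ => g_up hg P
  have s2 : ∑ P ∈ L2, g P = ∑ P ∈ (LT (M + 1) (D - 2)).filter (fun P => Typ a (y + 1) D P),
      g (((0, 2) : ℕ × ℕ) ::ₘ up P) := by
    rw [hL2, Finset.sum_image fun P _ Q _ h => up_injective ((Multiset.cons_inj_right _).1 h)]
  have t1 := Finset.sum_filter_add_sum_filter_not (LT M D) (fun P => Typ a (y + 1) D P) g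
  have t2 := Finset.sum_filter_add_sum_filter_not (LT (M + 1) (D - 2))
    (fun P => Typ a (y + 1) D P) (fun P => g (((0, 2) : ℕ × ℕ) ::ₘ up P))
  have low := h2 a y (m + 1) mu (L1 ∪ L2) hy (by omega) (by
    intro Q hQ
    rcases Finset.mem_union.1 hQ with hQ | hQ
    · obtain ⟨P, hP, rfl⟩ := Finset.mem_image.1 hQ
      obtain ⟨hP1, hP2, hP3⟩ := Finset.mem_filter.1 hP
      obtain ⟨c1, c2, c3⟩ := mem_LT hP1
      rw [card_up, sum_fst_up, sum_snd_up, c2, c3]
      refine ⟨fun x hx => ?_, by omega, by omega, rfl⟩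
      obtain ⟨z, hz, rfl⟩ := Multiset.mem_map.1 hx
      have h3 := c1 z hz
      have h4 := hP2 z hz
      simp only
      omega
    · obtain ⟨P, hP, rfl⟩ := Finset.mem_image.1 hQ
      obtain ⟨hP1, hP2, hP3⟩ := Finset.mem_filter.1 hP
      obtain ⟨c1, c2, c3⟩ := mem_LT hP1
      rw [Multiset.card_cons, Multiset.map_cons, Multiset.sum_cons, Multiset.map_cons,
        Multiset.sum_cons, card_up, sum_fst_up, sum_snd_up, c2, c3]
      have h8 : 0 + (M + 1 + Multiset.card P) + (y + 1) = mu 0 + (Multiset.card P + 1) := by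
        omega
      have h9 : 2 + (D - 2) = D := by omega
      refine ⟨fun x hx => ?_, by omega, h8, h9⟩
      rcases Multiset.mem_cons.1 hx with rfl | hx
      · have h5 : 0 + 2 + 2 ≤ a := by omega
        exact ⟨Or.inr ⟨rfl, le_rfl⟩, h5⟩
      · obtain ⟨z, hz, rfl⟩ := Multiset.mem_map.1 hx
        have h3 := c1 z hz
        have h4 := hP2 z hz
        simp only
        omega)
  rw [Finset.sum_union hdisj, s1, s2] at low
  change Module.finrank ℂ (TI y a (m + 2) mu) + _ ≤ Module.finrank ℂ (TI (y + 1) a (m + 2) mu)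
    at low
  omega

/-- **(T9)** -/
theorem asmS (hE : TW.E1) (h1 : UpG) (h2 : LowG) (h6 : TwoBox) (hA : CntA) (hB : CntB) :
    AsmS := by
  intro a b m X K mu hK hKX hX hw hw' hab hb hnu hD
  obtain ⟨k, rfl⟩ := Nat.exists_eq_add_of_le hab
  clear hab
  induction k with
  | zero => exact le_rfl
  | succ k ih =>
    have ih' := ih (by omega)
    have hD2 : 2 ≤ ∑ i, tl mu i := le_trans hnu
      (Finset.single_le_sum (f := tl mu) (fun i _ => Nat.zero_le _) (Finset.mem_univ 0))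
    obtain ⟨t, rfl⟩ : ∃ t, a = t + 1 := ⟨a - 1, by omega⟩
    have e1 := hE t (t + 1 + k) (m + 2) mu
    have u1 : NX (m + 2) (t + 1 + k + 1) t mu ≤ if t + 1 + k + 1 ≤ mu 0 then
        ∑ P ∈ LT (mu 0 - (t + 1 + k + 1)) (∑ i, tl mu i), G (m + 1) (tl mu) P else 0 :=
      h1 (m + 1) (t + 1 + k + 1) t mu
    rw [← Nat.add_assoc]
    by_cases hmu : t + 1 + k + 1 ≤ mu 0
    · rw [if_pos hmu] at u1
      have s := step h2 h6 hA hB (t + 1) (t + 1 + k) m X K mu hK hKX hX hw hw' (by omega)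
        (by omega) hnu hD hmu
      omega
    · rw [if_neg hmu] at u1
      have s : Module.finrank ℂ (TI (t + 1 + k) (t + 1) (m + 2) mu) +
          ∑ P ∈ (∅ : Finset (Multiset (ℕ × ℕ))), G (m + 1) (tl mu) P ≤
          Module.finrank ℂ (TI (t + 1 + k + 1) (t + 1) (m + 2) mu) :=
        h2 (t + 1) (t + 1 + k) (m + 1) mu ∅ (by omega) (by omega) (by simp)
      rw [Finset.sum_empty] at s
      omega

end Vale.Agent.P181.ST.H613
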