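import Vale.Agent.P181.ST.Defs
import Vale.Agent.P181.TW.Main
import Vale.Agent.P181.H536.HW

set_option autoImplicit false

/-!
# P181, ST [T10]: a short tail behind the second row
-/

namespace Vale.Agent.P181.ST.H613

open Vale.Agent.P181.ST
open Vale.Agent.P181.T4 (ex)
open Vale.Agent.P181.H280 (plethMult)
open Vale.Agent.P181.SZ (TI tl)
open Vale.Agent.P181.PL (dn)

lemma dn_two {m : ℕ} (lam : Fin (m + 2) → ℕ) : dn lam 2 = ∑ i, tl (tl lam) i := by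
  rw [dn, Fin.sum_univ_succ, Fin.sum_univ_succ]
  have h0 : (if 2 ≤ ((0 : Fin (m + 2)) : ℕ) then lam 0 else 0) = 0 := by simp
  have h1 : (if 2 ≤ ((Fin.succ 0 : Fin (m + 2)) : ℕ) then lam (Fin.succ 0) else 0) = 0 := by
    simp
  rw [h0, h1, zero_add, zero_add]
  refine Finset.sum_congr rfl fun i _ => ?_
  rw [if_pos (by simp)]
  rfl

/-- The numbers `K` and `X`. -/
theorem nums10 (a w : ℕ) (ha : 32 ≤ a)
    (hw : ((25 : ℝ) * 10 ^ 6) ^ 5 * (1 + Real.log a) ^ 10 * w ≤ (a : ℝ) ^ 2) :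
    ∃ X K : ℕ, 1 ≤ K ∧ 16 * K ^ 2 ≤ X ∧ 10 ^ 6 ≤ X ∧ w * X ^ 5 ≤ a ^ 2 ∧
      (w + 10) ^ 20 ≤ X ^ K := by
  have ha0 : (0 : ℝ) < a := by
    have : 0 < a := by omega
    exact_mod_cast this
  have hlog : 0 ≤ Real.log a := Real.log_natCast_nonneg a
  set L : ℝ := 1 + Real.log a with hL
  have hL1 : 1 ≤ L := by linarith
  have hw0 : (0 : ℝ) ≤ w := Nat.cast_nonneg _
  set K : ℕ := ⌈4 * L⌉₊ with hK
  have hK1 : 4 * L ≤ K := Nat.le_ceil _
  have hK2 : (K : ℝ) ≤ 5 * L := by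
    have := Nat.ceil_lt_add_one (show 0 ≤ 4 * L by linarith)
    linarith
  have hKpos : 1 ≤ K := by
    have : (1 : ℝ) ≤ K := by linarith
    exact_mod_cast this
  refine ⟨10 ^ 6 * K ^ 2, K, hKpos, Nat.mul_le_mul_right _ (by norm_num), ?_, ?_, ?_⟩
  · calc 10 ^ 6 = 10 ^ 6 * 1 := (mul_one _).symm
      _ ≤ 10 ^ 6 * K ^ 2 := Nat.mul_le_mul_left _ (Nat.one_le_pow _ _ hKpos)
  · have h1 : ((10 : ℝ) ^ 6 * (K : ℝ) ^ 2) ≤ 25 * 10 ^ 6 * L ^ 2 := by
      have : (K : ℝ) ^ 2 ≤ (5 * L) ^ 2 := by gcongr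
      nlinarith
    have h2 : ((10 : ℝ) ^ 6 * (K : ℝ) ^ 2) ^ 5 ≤ (25 * 10 ^ 6 * L ^ 2) ^ 5 := by gcongr
    have h3 : (w : ℝ) * ((10 : ℝ) ^ 6 * (K : ℝ) ^ 2) ^ 5 ≤ (a : ℝ) ^ 2 := by
      calc (w : ℝ) * ((10 : ℝ) ^ 6 * (K : ℝ) ^ 2) ^ 5
          ≤ w * (25 * 10 ^ 6 * L ^ 2) ^ 5 := by gcongr
        _ = (25 * 10 ^ 6) ^ 5 * L ^ 10 * w := by ring
        _ ≤ (a : ℝ) ^ 2 := hw
    exact_mod_cast h3
  · -- the exponent
    have hwa : (w : ℝ) ≤ (a : ℝ) ^ 2 := by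
      have h1 : (1 : ℝ) ≤ (25 * 10 ^ 6) ^ 5 * L ^ 10 := by
        have : (1 : ℝ) ≤ L ^ 10 := one_le_pow₀ hL1
        nlinarith
      calc (w : ℝ) = 1 * w := (one_mul _).symm
        _ ≤ (25 * 10 ^ 6) ^ 5 * L ^ 10 * w := by gcongr
        _ ≤ _ := hw
    have h32 : (32 : ℝ) ≤ a := by exact_mod_cast ha
    have h2 : (w : ℝ) + 10 ≤ 2 * (a : ℝ) ^ 2 := by nlinarith
    have hexpa : Real.exp (Real.log a) = a := Real.exp_log ha0
    have h3 : 2 * (a : ℝ) ^ 2 ≤ Real.exp (1 + 2 * Real.log a) := by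
      rw [Real.exp_add, show 2 * Real.log (a : ℝ) = Real.log a + Real.log a by ring,
        Real.exp_add, hexpa]
      have h4 : (2 : ℝ) ≤ Real.exp 1 := by
        have := Real.add_one_le_exp (1 : ℝ)
        linarith
      have h5 : (0 : ℝ) ≤ (a : ℝ) * a := by positivity
      nlinarith
    have h4 : Real.exp 12 ≤ (10 : ℝ) ^ 6 := by
      have h5 : Real.exp 12 = Real.exp 1 ^ 12 := by
        rw [← Real.exp_nat_mul]
        norm_num
      have h6 : Real.exp 1 ≤ 3 := by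
        have := Real.exp_one_lt_d9
        linarith
      rw [h5]
      calc Real.exp 1 ^ 12 ≤ (3 : ℝ) ^ 12 := by gcongr
        _ ≤ 10 ^ 6 := by norm_num
    have h5 : ((w : ℝ) + 10) ^ 20 ≤ ((10 : ℝ) ^ 6 * (K : ℝ) ^ 2) ^ K := by
      calc ((w : ℝ) + 10) ^ 20 ≤ (Real.exp (1 + 2 * Real.log a)) ^ 20 := by
            gcongr
            exact h2.trans h3
        _ = Real.exp (20 * (1 + 2 * Real.log a)) := by
            rw [← Real.exp_nat_mul]
            norm_num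
        _ ≤ Real.exp (K * 12) := by
            apply Real.exp_le_exp.2
            nlinarith
        _ = Real.exp 12 ^ K := by rw [Real.exp_nat_mul]
        _ ≤ ((10 : ℝ) ^ 6) ^ K := by gcongr
        _ ≤ ((10 : ℝ) ^ 6 * (K : ℝ) ^ 2) ^ K := by
            have h6 : (1 : ℝ) ≤ (K : ℝ) ^ 2 := by
              have : (1 : ℝ) ≤ K := by exact_mod_cast hKpos
              exact one_le_pow₀ this
            gcongr
            nlinarith
    exact_mod_cast h5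

/-- **(T10)** -/
theorem shortTail (h : AsmS) : ShortTail := by
  refine ⟨(25 * 10 ^ 6) ^ 5, 10, by positivity, fun a b hab n lam h2 hD hw => ?_⟩
  have hn : 3 ≤ n := by
    by_contra hn
    have : ex lam 2 = 0 := by
      rw [ex, dif_neg (by omega)]
    omega
  obtain ⟨m, rfl⟩ : ∃ m, n = m + 3 := ⟨n - 3, by omega⟩
  have hex : ex lam 2 = tl (tl lam) 0 := by
    rw [ex, dif_pos (by omega)]
    rfl
  have hD2 : dn lam 2 = ∑ i, tl (tl lam) i := dn_two lam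
  have hw1 : dn lam 1 = ∑ i, tl lam i := Vale.Agent.P181.TW.dn_one lam
  rw [hex] at h2
  rw [hD2] at hD
  rw [hw1] at hw
  have hDge : tl (tl lam) 0 ≤ ∑ i, tl (tl lam) i :=
    Finset.single_le_sum (f := tl (tl lam)) (fun i _ => Nat.zero_le _) (Finset.mem_univ 0)
  have ha : 32 ≤ a := by omega
  by_cases hsum : ∑ i, lam i = a * b
  · rcases le_or_gt b (2 * a) with hb | hb
    · obtain ⟨X, K, hK, hKX, hX, hwX, hwK⟩ := nums10 a (∑ i, tl lam i) ha (by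
        exact_mod_cast hw)
      exact (Vale.Agent.P181.SZ.R1a a b (m + 2) lam).trans
        ((h a b m X K (tl lam) hK hKX hX hwX hwK hab hb h2 hD).trans
          (Vale.Agent.P181.SZR2a.lowerA a b (m + 2) lam hsum))
    · apply Vale.Agent.P181.H536.plethMult_le (N := a - 1) (by omega) (by omega)
      have h3 : (∑ i : Fin (m + 1), lam i.succ.succ) = ∑ i, tl (tl lam) i := rfl
      rw [h3]
      omega
  · rw [Vale.Agent.P181.H777.plethMult_eq_zero_of_sum a b lam hsum]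
    exact Nat.zero_le _

end Vale.Agent.P181.ST.H613
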