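import Vale.Agent.P181.ST.H613.AsmS
import Vale.Agent.P181.ST.H613.ShortTail
import Vale.Agent.P181.TW.T1

set_option autoImplicit false

/-!
# P181, ST: the theorem from the open literals
-/

namespace Vale.Agent.P181.ST.H613

open Vale.Agent.P181.ST

theorem shortTail_of (h1 : UpG) (h2 : LowG) (h6 : TwoBox) (hA : CntA) (hB : CntB) : ShortTail :=
  shortTail (asmS Vale.Agent.P181.TW.T1.e1 h1 h2 h6 hA hB)

end Vale.Agent.P181.ST.H613
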